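import Vale.Agent.P079.Minimal

/-!
P079: a chain of approximate fixed points whose last norming functional reads every step.
-/

open Set Filter Topology Metric

namespace Vale.Agent.P079

universe u

variable {X : Type u} [NormedAddCommGroup X] [NormedSpace ℝ X] [CompleteSpace X]
  {T : X → X} {K : Set X}

/-- In a minimal invariant set of positive diameter there are long bounded sequences, almost
killed by any prescribed earlier functionals, that one functional reads uniformly. -/
theorem chain (hX : FipOn K) (hK : Good T K) (hmin : ∀ S ⊆ K, Good T S → S = K)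
    (hT : ∀ x ∈ K, ∀ y ∈ K, ‖T x - T y‖ ≤ ‖x - y‖) (hD : 0 < diam K) (k : ℕ)
    (sel : ℕ → (ℕ → X) → Finset (StrongDual ℝ X))
    (hsel : ∀ n g g', (∀ i < n, g i = g' i) → sel n g = sel n g') {δ : ℝ} (hδ : 0 < δ) :
    ∃ g : ℕ → X, ∃ Φ : StrongDual ℝ X, ‖Φ‖ ≤ 1 ∧
      ∀ i < k, ‖g i‖ ≤ 3 * diam K ∧ diam K / 2 ≤ Φ (g i) ∧ ∀ ψ ∈ sel i g, |ψ (g i)| < δ := by
  set D := diam K with hDdef
  set τ : ℝ := 1 / 8 with hτ
  set d : ℕ → ℝ := fun i => τ ^ (i + 1) with hd
  have hd0 : ∀ i, 0 < d i := fun i => by positivity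
  have hd1 : ∀ i, d i ≤ 1 := fun i => pow_le_one₀ (by norm_num [hτ]) (by norm_num [hτ])
  set ε : ℝ := τ ^ (k + 1) * D / (4 * ((k : ℝ) + 2)) with hεdef
  have hε : 0 < ε := by positivity
  have hεd : ∀ i < k, ((k : ℝ) + 2) * ε ≤ d i * D / 4 := by
    intro i hi
    have h1 : τ ^ (k + 1) ≤ d i :=
      pow_le_pow_of_le_one (by norm_num [hτ]) (by norm_num [hτ]) (by omega)
    rw [hεdef]
    field_simp
    nlinarith [mul_le_mul_of_nonneg_right h1 hD.le]
  -- roots: approximate fixed points with weak limit `w`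
  choose a ha hadef using fun n : ℕ =>
    exists_afp hK hT (show (0 : ℝ) < 1 / ((n : ℝ) + 1) by positivity)
  set U := hyperfilter ℕ
  obtain ⟨w, hwK, hw⟩ := exists_wlim hX hK.closed hK.convex U (f := a) ha
  obtain ⟨η, hη, hgk⟩ := goebel_karlovitz hX hK hmin hT hwK hε
  -- thresholds, counted from the end
  set sOf : ℝ → ℝ := fun h => min (1 / 2) (h / (2 * D)) with hsOf
  set th : ℕ → ℝ := fun r => ((fun h => ε * sOf h)^[r]) η with hth
  have hthsucc : ∀ r, th (r + 1) = ε * sOf (th r) := fun r => by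
    simp only [hth]; rw [Function.iterate_succ_apply']
  have hthpos : ∀ r, 0 < th r := by
    intro r
    induction r with
    | zero => simpa [hth] using hη
    | succ r ih => rw [hthsucc]; positivity
  have main : ∀ j, j ≤ k → ∃ g : ℕ → X, ∃ e ∈ K, ‖T e - e‖ < th (k - j) ∧
      ∀ i < j, ‖g i‖ ≤ 3 * D ∧ (∀ ψ ∈ sel i g, |ψ (g i)| < δ) ∧
        ∀ Φ : StrongDual ℝ X, ‖Φ‖ ≤ 1 → Φ (e - w) - (1 - d i) * D - ((j : ℝ) - i) * ε
          - 8 / 7 * D * (τ ^ (i + 2) - τ ^ (j + 1)) ≤ d i * Φ (g i) := by
    intro j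
    induction j with
    | zero =>
      intro _
      obtain ⟨e, he, hedef⟩ := exists_afp hK hT (hthpos k)
      exact ⟨fun _ => 0, e, he, by simpa using hedef, fun i hi => absurd hi (Nat.not_lt_zero i)⟩
    | succ j ih =>
      intro hj
      obtain ⟨g, e, he, hedef, hg⟩ := ih (by omega)
      rw [show k - j = (k - (j + 1)) + 1 by omega, hthsucc] at hedef
      set s := sOf (th (k - (j + 1))) with hs
      have hs0 : 0 < s := lt_min (by norm_num) (div_pos (hthpos _) (by linarith))
      have hs1 : s ≤ 1 := (min_le_left _ _).trans (by norm_num)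
      choose z hz hzdef hzq using fun l => exists_resolvent hK hT hs0 hs1
        (hK.convex he (ha l) (sub_nonneg.2 (hd1 j)) (hd0 j).le (by ring))
      have hze : ∀ l, ‖z l - e‖ ≤ d j * D + ε := by
        intro l
        refine (hzq l e he).trans (add_le_add ?_ ?_)
        · rw [show (1 - d j) • e + d j • a l - e = d j • (a l - e) by module,
            norm_smul_of_nonneg (hd0 j).le]
          exact mul_le_mul_of_nonneg_left (norm_sub_le_diam hK.bdd (ha l) he) (hd0 j).le
        · rw [div_le_iff₀ hs0]; exact hedef.le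
      obtain ⟨ν, -, hν⟩ := exists_wlim hX hK.closed hK.convex U (f := z) hz
      have hνe : ‖ν - e‖ ≤ d j * D + ε := by
        have := hν (closedBall e (d j * D + ε)) isClosed_closedBall (convex_closedBall _ _)
          (Eventually.of_forall fun l => by rw [mem_closedBall, dist_eq_norm]; exact hze l)
        rwa [mem_closedBall, dist_eq_norm] at this
      have hνw : ‖ν - w‖ ≤ (1 - d j) * D + ε := by
        refine norm_wlim_sub_le hν hw ?_
        obtain ⟨N, hN⟩ := exists_nat_one_div_lt (mul_pos hε hs0)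
        have : ∀ᶠ l in atTop, ‖z l - a l‖ ≤ (1 - d j) * D + ε := by
          refine eventually_atTop.2 ⟨N, fun l hl => ?_⟩
          refine (hzq l (a l) (ha l)).trans (add_le_add ?_ ?_)
          · rw [show (1 - d j) • e + d j • a l - a l = (1 - d j) • (e - a l) by module,
              norm_smul_of_nonneg (sub_nonneg.2 (hd1 j))]
            exact mul_le_mul_of_nonneg_left (norm_sub_le_diam hK.bdd he (ha l))
              (sub_nonneg.2 (hd1 j))
          · rw [div_le_iff₀ hs0]
            exact (hadef l).le.trans ((Nat.one_div_le_one_div hl).trans hN.le)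
        exact Nat.hyperfilter_le_atTop this
      have hev : ∀ᶠ l in (U : Filter ℕ), ∀ ψ ∈ sel j g, |(d j)⁻¹ * (ψ (z l) - ψ ν)| < δ := by
        rw [eventually_all_finset]
        intro ψ _
        have h1 := (((hν.tendsto_apply ψ).sub_const (ψ ν)).const_mul (d j)⁻¹).abs
        simp only [sub_self, mul_zero, abs_zero] at h1
        exact h1.eventually (gt_mem_nhds hδ)
      obtain ⟨l, hl⟩ := hev.exists
      set g' := Function.update g j ((d j)⁻¹ • (z l - ν)) with hg'
      have hsame : ∀ i < j, g' i = g i := fun i hi => Function.update_of_ne hi.ne _ _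
      have hgj : g' j = (d j)⁻¹ • (z l - ν) := Function.update_self _ _ _
      have hkε : 2 * ε ≤ d j * D / 4 := le_trans
        (mul_le_mul_of_nonneg_right (by linarith [k.cast_nonneg (α := ℝ)]) hε.le) (hεd j hj)
      refine ⟨g', z l, hz l, (hzdef l).trans_lt ?_, fun i hi => ?_⟩
      · have h1 : s * D ≤ th (k - (j + 1)) / (2 * D) * D :=
          mul_le_mul_of_nonneg_right (min_le_right _ _) hD.le
        rw [div_mul_eq_mul_div, show th (k - (j + 1)) * D / (2 * D) = th (k - (j + 1)) / 2 by
          field_simp] at h1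
        linarith [hthpos (k - (j + 1))]
      rcases Nat.lt_succ_iff_lt_or_eq.1 hi with hlt | rfl
      · obtain ⟨h1, h2, h3⟩ := hg i hlt
        rw [hsame i hlt, hsel i g' g fun m hm => hsame m (hm.trans hlt)]
        refine ⟨h1, h2, fun Φ hΦ => le_trans ?_ (h3 Φ hΦ)⟩
        have h4 : Φ (z l - w) - Φ (e - w) ≤ d j * D + ε := by
          rw [← map_sub, sub_sub_sub_cancel_right]
          exact ((le_abs_self _).trans (Φ.le_opNorm _)).trans
            ((mul_le_of_le_one_left (norm_nonneg _) hΦ).trans (hze l))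
        simp only [hd] at h4 ⊢
        push_cast
        rw [hτ] at h4 ⊢
        linear_combination h4
      · rw [hgj, hsel i g' g hsame]
        refine ⟨?_, fun ψ hψ => ?_, fun Φ hΦ => ?_⟩
        · rw [norm_smul_of_nonneg (inv_nonneg.2 (hd0 i).le), inv_mul_le_iff₀ (hd0 i)]
          have := norm_sub_le_norm_sub_add_norm_sub (z l) e ν
          rw [norm_sub_rev e ν] at this
          nlinarith [hze l, mul_pos (hd0 i) hD]
        · simpa [map_smul, map_sub] using hl ψ hψ
        · rw [map_smul, smul_eq_mul, mul_inv_cancel_left₀ (hd0 i).ne', map_sub, map_sub]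
          have : Φ ν - Φ w ≤ (1 - d i) * D + ε := by
            rw [← map_sub]
            exact ((le_abs_self _).trans (Φ.le_opNorm _)).trans
              ((mul_le_of_le_one_left (norm_nonneg _) hΦ).trans hνw)
          push_cast
          linear_combination this
  obtain ⟨g, e, he, hedef, hg⟩ := main k le_rfl
  obtain ⟨Φ, hΦ, hΦe⟩ := exists_dual_vector'' ℝ (e - w)
  have hbig : D - ε ≤ Φ (e - w) := by
    rw [hΦe]
    exact hgk e he (by simpa [hth] using hedef)
  refine ⟨g, Φ, hΦ, fun i hi => ?_⟩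
  obtain ⟨h1, h2, h3⟩ := hg i hi
  refine ⟨h1, ?_, h2⟩
  have h4 := h3 Φ hΦ
  have h5 := hεd i hi
  have h6 : τ ^ (i + 2) = d i / 8 := by simp only [hd, hτ]; ring
  have h7 : (0 : ℝ) ≤ τ ^ (k + 1) := by positivity
  have h8 : (i : ℝ) * ε ≥ 0 := by positivity
  have h9 : d i * (D / 2) ≤ d i * Φ (g i) := by
    rw [h6] at h4
    nlinarith [mul_nonneg hD.le h7, mul_pos (hd0 i) hD]
  exact le_of_mul_le_mul_left h9 (hd0 i)

end Vale.Agent.P079
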