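import Vale.Agent.P079.Defs
import Vale.Agent.P079.Chain

/-!
P079: asymptotically uniformly smooth renormings kill the chain, so weakly compact convex sets
have the fixed point property; in reflexive spaces all closed bounded convex sets do.
-/

open Set Filter Topology Metric

namespace Vale.Agent.P079

universe u

variable {X : Type u} [NormedAddCommGroup X] [NormedSpace ℝ X]

/-- The weak fixed point property: the fixed point property for weakly compact convex sets. -/
def HasWeakFPP (X : Type u) [NormedAddCommGroup X] [NormedSpace ℝ X] : Prop :=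
  ∀ C : Set X, C.Nonempty → IsCompact (toWeakSpace ℝ X '' C) → Convex ℝ C →
    ∀ T : X → X, MapsTo T C C → LipschitzOnWith 1 T C → ∃ x ∈ C, T x = x

/-- An equivalent norm `N` is asymptotically uniformly smooth: for every `ε` there is `t` such
that at each unit `x` some finite-codimensional subspace (the common kernel of `F`) has
`N (x + y) ≤ 1 + ε t` whenever `N y ≤ t`. -/
def HasAUSNorm (X : Type u) [NormedAddCommGroup X] [NormedSpace ℝ X] : Prop :=
  ∃ N : Seminorm ℝ X, (∃ A B : ℝ, 0 < A ∧ 0 < B ∧ ∀ x, N x ≤ A * ‖x‖ ∧ ‖x‖ ≤ B * N x) ∧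
    ∀ ε > 0, ∃ t > 0, ∀ x, N x = 1 → ∃ F : Finset (StrongDual ℝ X),
      ∀ y, (∀ f ∈ F, f y = 0) → N y ≤ t → N (x + y) ≤ 1 + ε * t

theorem isClosed_of_isCompact_weak {C : Set X} (h : IsCompact (toWeakSpace ℝ X '' C)) :
    IsClosed C := by
  have h1 := h.isClosed.preimage (toWeakSpaceCLM ℝ X).continuous
  have h2 : (toWeakSpaceCLM ℝ X) ⁻¹' (toWeakSpace ℝ X '' C) = C :=
    (toWeakSpace ℝ X).injective.preimage_image C
  rwa [h2] at h1

theorem isBounded_of_isCompact_weak [CompleteSpace X] {C : Set X}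
    (h : IsCompact (toWeakSpace ℝ X '' C)) : Bornology.IsBounded C := by
  have hpt : ∀ f : StrongDual ℝ X, ∃ M, ∀ i : C,
      ‖NormedSpace.inclusionInDoubleDual ℝ X i f‖ ≤ M := by
    intro f
    have hc : Continuous fun y : WeakSpace ℝ X => f ((toWeakSpace ℝ X).symm y) :=
      WeakBilin.eval_continuous (topDualPairing ℝ X).flip f
    obtain ⟨M, hM⟩ := (h.image hc).isBounded.exists_norm_le
    exact ⟨M, fun i => hM _ ⟨_, ⟨i, i.2, rfl⟩, by simp⟩⟩
  obtain ⟨M, hM⟩ := banach_steinhaus hpt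
  refine isBounded_iff_forall_norm_le.2 ⟨M, fun x hx => ?_⟩
  rw [← (NormedSpace.inclusionInDoubleDualLi ℝ (E := X)).norm_map x]
  exact hM ⟨x, hx⟩

theorem fipOn_of_isCompact_weak {C : Set X} (h : IsCompact (toWeakSpace ℝ X '' C)) :
    FipOn C := by
  intro F hF hdir hS
  have hcl : ∀ S ∈ F, IsClosed (toWeakSpace ℝ X '' S) := by
    intro S hSF
    have h1 := (hS S hSF).2.2.1.toWeakSpace_closure ℝ
    rw [(hS S hSF).2.1.closure_eq] at h1
    exact h1 ▸ isClosed_closure
  have : Nonempty F := hF.to_subtype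
  obtain ⟨y, hy⟩ := IsCompact.nonempty_iInter_of_directed_nonempty_isCompact_isClosed
    (fun S : F => toWeakSpace ℝ X '' (S : Set X))
    (fun S S' => by
      obtain ⟨W, hW, h1, h2⟩ := hdir S S.2 S' S'.2
      exact ⟨⟨W, hW⟩, image_mono h1, image_mono h2⟩)
    (fun S => (hS S S.2).1.image _)
    (fun S => h.of_isClosed_subset (hcl S S.2) (image_mono (hS S S.2).2.2.2))
    (fun S => hcl S S.2)
  refine ⟨(toWeakSpace ℝ X).symm y, fun S hSF => ?_⟩
  obtain ⟨x, hx, hxy⟩ := mem_iInter.1 hy ⟨S, hSF⟩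
  simpa [← hxy] using hx

theorem isCompact_weak_of_reflexive
    (hX : Function.Surjective (NormedSpace.inclusionInDoubleDual ℝ X)) {C : Set X}
    (hcl : IsClosed C) (hbd : Bornology.IsBounded C) (hcv : Convex ℝ C) :
    IsCompact (toWeakSpace ℝ X '' C) := by
  have h1 := NormedSpace.isCompact_closure_of_isBounded ℝ X (toWeakSpace ℝ X '' C)
    (by rwa [(toWeakSpace ℝ X).injective.preimage_image])
    (fun φ _ => by
      obtain ⟨x, hx⟩ := hX (StrongDual.toWeakDual.symm φ)
      exact ⟨toWeakSpace ℝ X x, by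
        apply StrongDual.toWeakDual.symm.injective
        rw [← hx]; rfl⟩)
  rwa [← hcv.toWeakSpace_closure ℝ, hcl.closure_eq] at h1

/-- Almost annihilated by finitely many functionals means near their common kernel. -/
theorem exists_close_kernel (F : Finset (StrongDual ℝ X)) :
    ∃ C : ℝ, 0 < C ∧ ∀ y, ∀ δ, 0 ≤ δ → (∀ f ∈ F, |f y| ≤ δ) →
      ∃ v, ‖v‖ ≤ C * δ ∧ ∀ f ∈ F, f (y - v) = 0 := by
  let L : X →ₗ[ℝ] (F → ℝ) := LinearMap.pi fun f => (f : StrongDual ℝ X).toLinearMap
  obtain ⟨R, hR⟩ := L.rangeRestrict.exists_rightInverse_of_surjective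
    (LinearMap.range_rangeRestrict L)
  set Rc := LinearMap.toContinuousLinearMap R
  refine ⟨‖Rc‖ + 1, by positivity, fun y δ hδ hy => ⟨Rc (L.rangeRestrict y), ?_, fun f hf => ?_⟩⟩
  · refine (Rc.le_opNorm _).trans (mul_le_mul (by linarith) ?_ (norm_nonneg _) (by positivity))
    rw [← Submodule.norm_coe]
    exact (pi_norm_le_iff_of_nonneg hδ).2 fun f => by simpa [L] using hy f f.2
  · have h1 : L.rangeRestrict (R (L.rangeRestrict y)) = L.rangeRestrict y :=
      LinearMap.congr_fun hR (L.rangeRestrict y)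
    have h2 : L (R (L.rangeRestrict y)) ⟨f, hf⟩ = L y ⟨f, hf⟩ :=
      congrArg (fun v : LinearMap.range L => (v : F → ℝ) ⟨f, hf⟩) h1
    simp only [L, LinearMap.pi_apply] at h2
    simp only [map_sub, sub_eq_zero]
    exact h2.symm

/-- The smoothness inequality for vectors almost annihilated by finitely many functionals. -/
theorem aus_almost {N : Seminorm ℝ X} {A B ε t : ℝ} (hA : 0 < A)
    (hAB : ∀ x, N x ≤ A * ‖x‖ ∧ ‖x‖ ≤ B * N x) (hε : 0 < ε) (ht : 0 < t) (hw : ∃ x, N x = 1)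
    (h : ∀ x, N x = 1 → ∃ F : Finset (StrongDual ℝ X),
      ∀ y, (∀ f ∈ F, f y = 0) → N y ≤ t → N (x + y) ≤ 1 + ε * t)
    (x : X) (hx : N x ≤ 1) :
    ∃ F : Finset (StrongDual ℝ X),
      ∀ y, (∀ f ∈ F, |f y| < 1) → N y ≤ t / 2 → N (x + y) ≤ 1 + 2 * ε * t := by
  classical
  obtain ⟨p, s, hs0, hs1, hp, rfl⟩ : ∃ p : X, ∃ s : ℝ, 0 ≤ s ∧ s ≤ 1 ∧ N p = 1 ∧ x = s • p := by
    rcases eq_or_ne (N x) 0 with h0 | h0
    · obtain ⟨p, hp⟩ := hw
      have : x = 0 := norm_le_zero_iff.1 (by simpa [h0] using (hAB x).2)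
      exact ⟨p, 0, le_rfl, zero_le_one, hp, by simp [this]⟩
    · refine ⟨(N x)⁻¹ • x, N x, apply_nonneg N x, hx, ?_, by simp [smul_smul, mul_inv_cancel₀ h0]⟩
      rw [map_smul_eq_mul, Real.norm_of_nonneg (inv_nonneg.2 (apply_nonneg N x)), inv_mul_cancel₀ h0]
  obtain ⟨F₁, hF₁⟩ := h p hp
  obtain ⟨F₂, hF₂⟩ := h (-p) (by rw [map_neg_eq_map, hp])
  obtain ⟨C, hC, hclose⟩ := exists_close_kernel (F₁ ∪ F₂)
  set δ := min (t / 2) (ε * t) / (A * C) with hδdef
  have hδ : 0 < δ := by positivity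
  refine ⟨(F₁ ∪ F₂).image fun f => δ⁻¹ • f, fun y hy hyt => ?_⟩
  obtain ⟨v, hv, hker⟩ := hclose y δ hδ.le fun f hf => by
    have := hy _ (Finset.mem_image_of_mem _ hf)
    rw [smul_apply, smul_eq_mul, abs_mul, abs_of_pos (inv_pos.2 hδ),
      inv_mul_lt_iff₀ hδ, mul_one] at this
    exact this.le
  have hNv : N v ≤ min (t / 2) (ε * t) := by
    refine ((hAB v).1.trans (mul_le_mul_of_nonneg_left hv hA.le)).trans_eq ?_
    rw [hδdef]; field_simp
  have hNyv : N (y - v) ≤ t := by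
    have := map_sub_le_add N y v
    linarith [min_le_left (t / 2) (ε * t)]
  have e1 := hF₁ _ (fun f hf => hker f (Finset.mem_union_left _ hf)) hNyv
  have e2 := hF₂ _ (fun f hf => hker f (Finset.mem_union_right _ hf)) hNyv
  have e : s • p + (y - v) =
      ((1 + s) / 2) • (p + (y - v)) + ((1 - s) / 2) • (-p + (y - v)) := by module
  have e3 : N (s • p + (y - v)) ≤ 1 + ε * t := by
    rw [e]
    refine (map_add_le_add N _ _).trans ?_
    rw [map_smul_eq_mul, map_smul_eq_mul, Real.norm_of_nonneg (by linarith),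
      Real.norm_of_nonneg (by linarith)]
    nlinarith
  have e4 := map_add_le_add N (s • p + (y - v)) v
  rw [show s • p + (y - v) + v = s • p + y by abel] at e4
  linarith [min_le_right (t / 2) (ε * t)]

theorem hasWeakFPP_of_aus [CompleteSpace X] (h : HasAUSNorm X) : HasWeakFPP X := by
  obtain ⟨N, ⟨A, B, hA, hB, hAB⟩, haus⟩ := h
  intro C hne hcomp hcv T hmaps hlip
  have hCfip : FipOn C := fipOn_of_isCompact_weak hcomp
  obtain ⟨K, hKC, hK, hmin⟩ := exists_minimal hCfip (T := T)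
    ⟨hne, isClosed_of_isCompact_weak hcomp, isBounded_of_isCompact_weak hcomp, hcv, hmaps⟩
  have hT : ∀ x ∈ K, ∀ y ∈ K, ‖T x - T y‖ ≤ ‖x - y‖ := fun x hx y hy => by
    simpa [dist_eq_norm] using hlip.dist_le_mul x (hKC hx) y (hKC hy)
  by_contra hcon
  obtain ⟨x0, hx0⟩ := hK.nonempty
  have hne0 : T x0 - x0 ≠ 0 := sub_ne_zero.2 fun h => hcon ⟨x0, hKC hx0, h⟩
  have hD : 0 < diam K := (norm_pos_iff.2 hne0).trans_le
    (norm_sub_le_diam hK.bdd (hK.maps hx0) hx0)
  set D := diam K with hDdef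
  have hw : ∃ x, N x = 1 := by
    have : 0 < N (T x0 - x0) := by
      by_contra hle
      push Not at hle
      nlinarith [norm_pos_iff.2 hne0, (hAB (T x0 - x0)).2, apply_nonneg N (T x0 - x0)]
    exact ⟨(N (T x0 - x0))⁻¹ • (T x0 - x0), by
      rw [map_smul_eq_mul, Real.norm_of_nonneg (by positivity), inv_mul_cancel₀ this.ne']⟩
  set R := A * (3 * D) with hR
  have hR0 : 0 < R := by positivity
  set ε := D / (24 * B * R) with hεdef
  have hε : 0 < ε := by positivity
  obtain ⟨t, ht, hball⟩ := haus ε hε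
  set c₀ := 2 * R / t with hc₀
  have hc₀pos : 0 < c₀ := by positivity
  choose F hF using aus_almost hA hAB hε ht hw hball
  classical
  let c : ℕ → (ℕ → X) → ℝ := fun i g => max (N (∑ j ∈ Finset.range i, g j)) c₀
  have hc : ∀ i g, c₀ ≤ c i g := fun i g => le_max_right _ _
  have hcx : ∀ i g, N ((c i g)⁻¹ • ∑ j ∈ Finset.range i, g j) ≤ 1 := fun i g => by
    have hpos : 0 < c i g := hc₀pos.trans_le (hc i g)
    rw [map_smul_eq_mul, Real.norm_of_nonneg (inv_nonneg.2 hpos.le), inv_mul_le_iff₀ hpos, mul_one]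
    exact le_max_left _ _
  let sel : ℕ → (ℕ → X) → Finset (StrongDual ℝ X) := fun i g =>
    (F _ (hcx i g)).image fun f => (t / (2 * R)) • f
  have hsel : ∀ n g g', (∀ i < n, g i = g' i) → sel n g = sel n g' := by
    intro n g g' h
    have : (c n g)⁻¹ • ∑ j ∈ Finset.range n, g j = (c n g')⁻¹ • ∑ j ∈ Finset.range n, g' j := by
      simp only [c]
      rw [Finset.sum_congr rfl fun j hj => h j (Finset.mem_range.1 hj)]
    simp only [sel, this]
  obtain ⟨k, hk⟩ := exists_nat_gt (c₀ / (4 * ε * R))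
  rw [div_lt_iff₀ (by positivity)] at hk
  obtain ⟨g, Φ, hΦ, hg⟩ := chain (hCfip.mono hKC) hK hmin hT hD k sel hsel one_pos
  have key : ∀ i ≤ k, max (N (∑ j ∈ Finset.range i, g j)) c₀ ≤ c₀ + 4 * ε * R * i := by
    intro i
    induction i with
    | zero => simp [hc₀pos.le]
    | succ i ih =>
      intro hi
      obtain ⟨g1, -, g3⟩ := hg i (by omega)
      set S := ∑ j ∈ Finset.range i, g j with hS
      set ci := max (N S) c₀ with hci
      have hpos : 0 < ci := hc₀pos.trans_le (le_max_right _ _)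
      set u := c₀ / ci with hu
      have hu0 : 0 ≤ u := by positivity
      have hu1 : u ≤ 1 := (div_le_one hpos).2 (le_max_right _ _)
      set y := (t / (2 * R)) • g i with hy
      have hNy : N y ≤ t / 2 := by
        rw [hy, map_smul_eq_mul, Real.norm_of_nonneg (by positivity), div_mul_eq_mul_div,
          div_le_div_iff₀ (by positivity) two_pos]
        have : N (g i) ≤ R := (hAB _).1.trans (mul_le_mul_of_nonneg_left g1 hA.le)
        nlinarith
      have h1 : N (ci⁻¹ • S + y) ≤ 1 + 2 * ε * t := by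
        refine hF _ (hcx i g) y (fun f hf => ?_) hNy
        have := g3 _ (Finset.mem_image_of_mem _ hf)
        simpa [hy, map_smul] using this
      have hxn : N (ci⁻¹ • S) ≤ 1 := hcx i g
      have hsum : S + g i = ci • ((1 - u) • (ci⁻¹ • S) + u • (ci⁻¹ • S + y)) := by
        have e1 : ci * u * (t / (2 * R)) = 1 := by rw [hu, hc₀]; field_simp
        have e2 : ci • ((1 - u) • (ci⁻¹ • S) + u • (ci⁻¹ • S + y)) =
            (ci * ci⁻¹) • S + (ci * u) • y := by module
        rw [e2, hy, smul_smul, e1, mul_inv_cancel₀ hpos.ne', one_smul, one_smul]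
      have h2 : N (S + g i) ≤ ci + 4 * ε * R := by
        rw [hsum, map_smul_eq_mul, Real.norm_of_nonneg hpos.le]
        have e5 : ∀ a b : X, N a ≤ 1 → N b ≤ 1 + 2 * ε * t →
            N ((1 - u) • a + u • b) ≤ 1 + u * (2 * ε * t) := fun a b ha hb => by
          refine (map_add_le_add N _ _).trans ?_
          rw [map_smul_eq_mul, map_smul_eq_mul, Real.norm_of_nonneg (by linarith),
            Real.norm_of_nonneg hu0]
          nlinarith
        have e3 : ci * (u * (2 * ε * t)) = 4 * ε * R := by rw [hu, hc₀]; field_simp; ring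
        have e4 := mul_le_mul_of_nonneg_left (e5 _ _ hxn h1) hpos.le
        linear_combination e4 + e3
      have hεR : 0 ≤ 4 * ε * R := by positivity
      rw [Finset.sum_range_succ, ← hS]
      push_cast
      exact max_le (by linarith [ih (by omega)])
        (by linarith [le_max_right (N S) c₀, ih (by omega)])
  have h5 : (k : ℝ) * (D / 2) ≤ ‖∑ j ∈ Finset.range k, g j‖ := by
    refine le_trans ?_ (((le_abs_self _).trans (Φ.le_opNorm _)).trans
      (mul_le_of_le_one_left (norm_nonneg _) hΦ))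
    rw [map_sum]
    refine le_trans (le_of_eq ?_)
      (Finset.sum_le_sum fun j hj => (hg j (Finset.mem_range.1 hj)).2.1)
    simp [hDdef]
  have h6 := (hAB (∑ j ∈ Finset.range k, g j)).2.trans
    (mul_le_mul_of_nonneg_left ((le_max_left _ _).trans (key k le_rfl)) hB.le)
  have e : B * (4 * ε * R) = D / 6 := by rw [hεdef]; field_simp; ring
  have h7 : B * c₀ < B * (4 * ε * R) * k := by
    nlinarith [mul_lt_mul_of_pos_left hk hB]
  rw [e] at h7
  have h8 : B * (c₀ + 4 * ε * R * k) = B * c₀ + D / 6 * k := by rw [← e]; ring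
  rw [h8] at h6
  nlinarith [mul_nonneg hD.le k.cast_nonneg (α := ℝ)]

theorem hasFPP_of_reflexive_aus [CompleteSpace X]
    (hX : Function.Surjective (NormedSpace.inclusionInDoubleDual ℝ X)) (h : HasAUSNorm X) :
    HasFPP X := fun C hne hcl hbd hcv =>
  hasWeakFPP_of_aus h C hne (isCompact_weak_of_reflexive hX hcl hbd hcv) hcv

/-- The space of null sequences has such a norm. -/
theorem hasAUSNorm_c0 : HasAUSNorm (ZeroAtInftyContinuousMap ℕ ℝ) := by
  classical
  refine ⟨normSeminorm ℝ _, ⟨1, 1, one_pos, one_pos, fun x => by simp⟩, fun ε hε => ?_⟩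
  refine ⟨1 / 2, by norm_num, fun x hx => ?_⟩
  have h0 := x.zero_at_infty'
  rw [cocompact_eq_cofinite, _root_.tendsto_nhds] at h0
  have hfin : {n | |x n| < 1 / 2}ᶜ.Finite := by
    have := h0 (Metric.ball (0 : ℝ) (1 / 2)) Metric.isOpen_ball (by simp)
    simpa [Filter.mem_cofinite, Metric.ball, Set.preimage, Real.dist_eq] using this
  let ev : ℕ → StrongDual ℝ (ZeroAtInftyContinuousMap ℕ ℝ) := fun n =>
    LinearMap.mkContinuous
      { toFun := fun f => f n, map_add' := fun f g => rfl, map_smul' := fun c f => rfl } 1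
      (fun f => by
        simpa using f.toBCF.norm_coe_le_norm n)
  refine ⟨hfin.toFinset.image ev, fun y hy hyt => ?_⟩
  simp only [coe_normSeminorm] at hx hyt ⊢
  rw [← ZeroAtInftyContinuousMap.norm_toBCF_eq_norm]
  refine (BoundedContinuousFunction.norm_le (by positivity)).2 fun n => ?_
  have hyn : |y n| ≤ 1 / 2 := le_trans (by simpa using y.toBCF.norm_coe_le_norm n) hyt
  have hxn : |x n| ≤ 1 := le_trans (by simpa using x.toBCF.norm_coe_le_norm n) hx.le
  rw [show ((x + y).toBCF n) = x n + y n from rfl, Real.norm_eq_abs]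
  by_cases hn : |x n| < 1 / 2
  · linarith [abs_add_le (x n) (y n)]
  · have : y n = 0 := hy (ev n) (Finset.mem_image_of_mem _ (hfin.mem_toFinset.2 hn))
    rw [this, add_zero]
    linarith

theorem HasAUSNorm.of_equiv {Y : Type*} [NormedAddCommGroup Y] [NormedSpace ℝ Y]
    (e : X ≃L[ℝ] Y) (h : HasAUSNorm Y) : HasAUSNorm X := by
  classical
  obtain ⟨N, ⟨A, B, hA, hB, hAB⟩, haus⟩ := h
  refine ⟨N.comp (e : X →L[ℝ] Y).toLinearMap, ⟨A * (‖(e : X →L[ℝ] Y)‖ + 1),
    (‖(e.symm : Y →L[ℝ] X)‖ + 1) * B, by positivity, by positivity, fun x => ⟨?_, ?_⟩⟩, ?_⟩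
  · rw [Seminorm.comp_apply, mul_assoc]
    refine (hAB _).1.trans (mul_le_mul_of_nonneg_left ?_ hA.le)
    exact ((e : X →L[ℝ] Y).le_opNorm x).trans
      (mul_le_mul_of_nonneg_right (by linarith) (norm_nonneg _))
  · rw [Seminorm.comp_apply, mul_assoc]
    calc ‖x‖ = ‖(e.symm : Y →L[ℝ] X) (e x)‖ := by simp
      _ ≤ ‖(e.symm : Y →L[ℝ] X)‖ * ‖e x‖ := ContinuousLinearMap.le_opNorm _ _
      _ ≤ (‖(e.symm : Y →L[ℝ] X)‖ + 1) * (B * N (e x)) :=
        mul_le_mul (by linarith) (hAB _).2 (norm_nonneg _) (by positivity)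
  · intro ε hε
    obtain ⟨t, ht, h⟩ := haus ε hε
    refine ⟨t, ht, fun x hx => ?_⟩
    obtain ⟨F, hF⟩ := h (e x) hx
    refine ⟨F.image fun f => f.comp (e : X →L[ℝ] Y), fun y hy hyt => ?_⟩
    rw [Seminorm.comp_apply, map_add]
    exact hF _ (fun f hf => hy _ (Finset.mem_image_of_mem _ hf)) hyt

end Vale.Agent.P079
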