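import Mathlib

/-!
P079: the fixed point property of the problem.
-/

open Set

namespace Vale.Agent.P079

universe u

/-- The fixed point property for nonexpansive maps: every nonexpansive selfmap of a nonempty
norm-closed bounded convex set, in the given norm, has a fixed point. -/
def HasFPP (X : Type u) [NormedAddCommGroup X] [NormedSpace ℝ X] : Prop :=
  ∀ C : Set X, C.Nonempty → IsClosed C → Bornology.IsBounded C → Convex ℝ C →
    ∀ T : X → X, MapsTo T C C → LipschitzOnWith 1 T C → ∃ x ∈ C, T x = x

end Vale.Agent.P079
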