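import Mathlib

/-!
P079: nested bounded closed convex sets in uniformly convex spaces, and weak limits.
-/

open Set Filter Topology Metric

namespace Vale.Agent.P079

universe u v

/-- Downward directed families of nonempty bounded closed convex sets have a common point. -/
def Fip (X : Type u) [NormedAddCommGroup X] [NormedSpace ℝ X] : Prop :=
  ∀ F : Set (Set X), F.Nonempty → DirectedOn (fun A B => B ⊆ A) F →
    (∀ S ∈ F, S.Nonempty ∧ IsClosed S ∧ Bornology.IsBounded S ∧ Convex ℝ S) → (⋂₀ F).Nonempty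

theorem fip_of_uniformConvexSpace (Y : Type v) [NormedAddCommGroup Y] [NormedSpace ℝ Y]
    [CompleteSpace Y] [UniformConvexSpace Y] : Fip Y := by
  intro F hF hdir hS
  have : Nonempty F := hF.to_subtype
  let d : F → ℝ := fun S => sInf ((‖·‖) '' (S : Set Y))
  have hbdd : ∀ S : F, BddBelow ((‖·‖) '' (S : Set Y)) := fun S =>
    ⟨0, by rintro _ ⟨x, _, rfl⟩; exact norm_nonneg x⟩
  have hdle : ∀ (S : F) {x : Y}, x ∈ (S : Set Y) → d S ≤ ‖x‖ := fun S x hx =>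
    csInf_le (hbdd S) ⟨x, hx, rfl⟩
  have hd0 : ∀ S : F, 0 ≤ d S := fun S => le_csInf ((hS S S.2).1.image _)
    (by rintro _ ⟨x, _, rfl⟩; exact norm_nonneg x)
  have hexd : ∀ (S : F) (ρ : ℝ), 0 < ρ → ∃ x ∈ (S : Set Y), ‖x‖ < d S + ρ := by
    intro S ρ hρ
    obtain ⟨_, ⟨x, hx, rfl⟩, h⟩ :=
      exists_lt_of_csInf_lt ((hS S S.2).1.image (‖·‖)) (lt_add_of_pos_right (d S) hρ)
    exact ⟨x, hx, h⟩
  obtain ⟨S0, hS0⟩ := hF
  obtain ⟨R, hR⟩ := (hS S0 hS0).2.2.1.exists_norm_le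
  have hup : BddAbove (range d) := by
    refine ⟨R, ?_⟩
    rintro _ ⟨S, rfl⟩
    obtain ⟨S', hS', h1, h2⟩ := hdir S S.2 S0 hS0
    obtain ⟨x, hx⟩ := (hS S' hS').1
    exact (hdle S (h1 hx)).trans (hR x (h2 hx))
  set D := sSup (range d) with hDdef
  have hD : ∀ S : F, d S ≤ D := fun S => le_csSup hup ⟨S, rfl⟩
  have hD0 : 0 ≤ D := (hd0 ⟨S0, hS0⟩).trans (hD _)
  have hclose : ∀ ε > 0, ∃ ρ > 0, ∀ S : F, D - ρ ≤ d S → ∀ p ∈ (S : Set Y), ∀ q ∈ (S : Set Y),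
      ‖p‖ ≤ D + ρ → ‖q‖ ≤ D + ρ → ‖p - q‖ < ε := by
    intro ε hε
    rcases hD0.eq_or_lt with h0 | hpos
    · refine ⟨ε / 4, by linarith, fun S _ p _ q _ hp hq => ?_⟩
      linarith [norm_sub_le p q]
    · obtain ⟨δ, hδ, h⟩ :=
        exists_forall_closed_ball_dist_add_le_two_sub Y (ε := ε / (D + 1)) (by positivity)
      refine ⟨min 1 (δ * D / 8), lt_min one_pos (by positivity), fun S hdS p hp q hq hpn hqn => ?_⟩
      set ρ := min 1 (δ * D / 8) with hρ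
      have hρ0 : 0 < ρ := lt_min one_pos (by positivity)
      have hr : 0 < D + ρ := by linarith
      by_contra hlt
      push Not at hlt
      have hsc : ∀ z : Y, ‖(D + ρ)⁻¹ • z‖ = (D + ρ)⁻¹ * ‖z‖ := fun z =>
        norm_smul_of_nonneg (inv_nonneg.2 hr.le) z
      have h1 : ‖(D + ρ)⁻¹ • p + (D + ρ)⁻¹ • q‖ ≤ 2 - δ := by
        refine h ?_ ?_ ?_
        · rw [hsc, inv_mul_le_iff₀ hr, mul_one]; exact hpn
        · rw [hsc, inv_mul_le_iff₀ hr, mul_one]; exact hqn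
        · rw [← smul_sub, hsc, ← div_eq_inv_mul]
          exact div_le_div₀ (norm_nonneg _) hlt hr (by linarith [min_le_left 1 (δ * D / 8)])
      rw [← smul_add, hsc, inv_mul_le_iff₀ hr] at h1
      have hmid : (1 / 2 : ℝ) • (p + q) ∈ (S : Set Y) := by
        rw [smul_add]
        exact (hS S S.2).2.2.2 hp hq (by norm_num) (by norm_num) (by norm_num)
      have h2 := (hdle S hmid)
      rw [norm_smul_of_nonneg (by norm_num)] at h2
      nlinarith [min_le_right 1 (δ * D / 8), mul_pos hδ hρ0]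
  let Nice : ℝ → Y → Prop := fun ρ x => ∃ S : F, D - ρ ≤ d S ∧ x ∈ (S : Set Y) ∧ ‖x‖ ≤ D + ρ
  have hrefine : ∀ (S T : F) (ρ : ℝ), 0 < ρ → D - ρ ≤ d S →
      ∃ r ∈ (S : Set Y) ∩ T, ‖r‖ ≤ D + ρ := by
    intro S T ρ hρ _
    obtain ⟨W, hW, h1, h2⟩ := hdir S S.2 T T.2
    obtain ⟨r, hr, hrn⟩ := hexd ⟨W, hW⟩ ρ hρ
    exact ⟨r, ⟨h1 hr, h2 hr⟩, by linarith [hD ⟨W, hW⟩]⟩
  have hpair : ∀ ε > 0, ∃ ρ > 0, ∀ p q, Nice ρ p → Nice ρ q → ‖p - q‖ < ε := by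
    intro ε hε
    obtain ⟨ρ, hρ, h⟩ := hclose (ε / 2) (by linarith)
    refine ⟨ρ, hρ, ?_⟩
    rintro p q ⟨S, hdS, hp, hpn⟩ ⟨T, hdT, hq, hqn⟩
    obtain ⟨r, ⟨hr1, hr2⟩, hrn⟩ := hrefine S T ρ hρ hdS
    have e1 := h S hdS p hp r hr1 hpn hrn
    have e2 := h T hdT r hr2 q hq hrn hqn
    calc ‖p - q‖ = ‖(p - r) + (r - q)‖ := by congr 1; abel
      _ ≤ ‖p - r‖ + ‖r - q‖ := norm_add_le _ _
      _ < ε := by linarith
  have hex : ∀ n : ℕ, ∃ S : F, D - 1 / ((n : ℝ) + 1) ≤ d S := by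
    intro n
    obtain ⟨_, ⟨S, rfl⟩, h⟩ := exists_lt_of_lt_csSup (range_nonempty d)
      (show D - 1 / ((n : ℝ) + 1) < sSup (range d) by
        linarith [show (0 : ℝ) < 1 / ((n : ℝ) + 1) by positivity])
    exact ⟨S, h.le⟩
  choose Sn hSn using hex
  choose x hx hxn using fun n : ℕ => hexd (Sn n) (1 / ((n : ℝ) + 1)) (by positivity)
  have hnice : ∀ ρ > 0, ∃ N : ℕ, ∀ n ≥ N, 1 / ((n : ℝ) + 1) ≤ ρ := by
    intro ρ hρ
    obtain ⟨N, hN⟩ := exists_nat_one_div_lt hρ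
    exact ⟨N, fun n hn => (Nat.one_div_le_one_div hn).trans hN.le⟩
  have hxnice : ∀ (n : ℕ) (ρ : ℝ), 1 / ((n : ℝ) + 1) ≤ ρ → Nice ρ (x n) := fun n ρ hn =>
    ⟨Sn n, by linarith [hSn n], hx n, by linarith [hxn n, hD (Sn n)]⟩
  have hcau : CauchySeq x := by
    refine Metric.cauchySeq_iff'.2 fun ε hε => ?_
    obtain ⟨ρ, hρ, h⟩ := hpair ε hε
    obtain ⟨N, hN⟩ := hnice ρ hρ
    exact ⟨N, fun n hn => by
      rw [dist_eq_norm]
      exact h _ _ (hxnice n ρ (hN n hn)) (hxnice N ρ (hN N le_rfl))⟩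
  obtain ⟨p, hp⟩ := cauchySeq_tendsto_of_complete hcau
  refine ⟨p, fun S hSF => ?_⟩
  choose r hr hrn using fun n : ℕ =>
    hrefine (Sn n) ⟨S, hSF⟩ (1 / ((n : ℝ) + 1)) (by positivity) (hSn n)
  refine (hS S hSF).2.1.mem_of_tendsto (f := r) (b := atTop) ?_ (Eventually.of_forall fun n => (hr n).2)
  refine Metric.tendsto_atTop.2 fun ε hε => ?_
  obtain ⟨ρ, hρ, h⟩ := hpair (ε / 2) (by linarith)
  obtain ⟨N, hN⟩ := hnice ρ hρ
  obtain ⟨N', hN'⟩ := Metric.tendsto_atTop.1 hp (ε / 2) (by linarith)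
  refine ⟨max N N', fun n hn => ?_⟩
  have h1 := hN n (le_trans (le_max_left _ _) hn)
  have h2 := hN' n (le_trans (le_max_right _ _) hn)
  have h3 := h (r n) (x n)
    ⟨Sn n, by linarith [hSn n], (hr n).1, by linarith [hrn n]⟩ (hxnice n ρ h1)
  have h4 := dist_triangle (r n) (x n) p
  rw [dist_eq_norm (r n) (x n)] at h4
  linarith

variable {X : Type u} [NormedAddCommGroup X] [NormedSpace ℝ X]

theorem Fip.of_equiv {Y : Type v} [NormedAddCommGroup Y] [NormedSpace ℝ Y] (e : X ≃L[ℝ] Y)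
    (hY : Fip Y) : Fip X := by
  intro F hF hdir hS
  have hdir' : DirectedOn (fun A B => B ⊆ A) ((fun S => e '' S) '' F) := by
    rintro _ ⟨S, hSF, rfl⟩ _ ⟨T, hTF, rfl⟩
    obtain ⟨W, hW, h1, h2⟩ := hdir S hSF T hTF
    exact ⟨_, ⟨W, hW, rfl⟩, image_mono h1, image_mono h2⟩
  have hS' : ∀ T ∈ (fun S => e '' S) '' F,
      T.Nonempty ∧ IsClosed T ∧ Bornology.IsBounded T ∧ Convex ℝ T := by
    rintro _ ⟨S, hSF, rfl⟩
    obtain ⟨h1, h2, h3, h4⟩ := hS S hSF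
    exact ⟨h1.image _, e.toHomeomorph.isClosedMap _ h2,
      e.toContinuousLinearMap.lipschitz.isBounded_image h3,
      h4.linear_image e.toLinearEquiv.toLinearMap⟩
  obtain ⟨y, hy⟩ := hY ((fun S => e '' S) '' F) (hF.image _) hdir' hS'
  refine ⟨e.symm y, fun S hSF => ?_⟩
  obtain ⟨x, hx, hxy⟩ := hy _ ⟨S, hSF, rfl⟩
  simpa [← hxy] using hx

/-- Downward directed families of nonempty closed convex subsets of `C` have a common point. -/
def FipOn (C : Set X) : Prop :=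
  ∀ F : Set (Set X), F.Nonempty → DirectedOn (fun A B => B ⊆ A) F →
    (∀ S ∈ F, S.Nonempty ∧ IsClosed S ∧ Convex ℝ S ∧ S ⊆ C) → (⋂₀ F).Nonempty

theorem FipOn.mono {C K : Set X} (h : FipOn C) (hKC : K ⊆ C) : FipOn K :=
  fun F h1 h2 h3 => h F h1 h2 fun S hS =>
    ⟨(h3 S hS).1, (h3 S hS).2.1, (h3 S hS).2.2.1, (h3 S hS).2.2.2.trans hKC⟩

theorem Fip.fipOn (h : Fip X) {C : Set X} (hC : Bornology.IsBounded C) : FipOn C :=
  fun F h1 h2 h3 => h F h1 h2 fun S hS =>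
    ⟨(h3 S hS).1, (h3 S hS).2.1, hC.subset (h3 S hS).2.2.2, (h3 S hS).2.2.1⟩

/-- `w` lies in every closed convex set that eventually contains `f`. -/
def IsWLim {ι : Type*} (U : Ultrafilter ι) (f : ι → X) (w : X) : Prop :=
  ∀ Z : Set X, IsClosed Z → Convex ℝ Z → (∀ᶠ i in (U : Filter ι), f i ∈ Z) → w ∈ Z

theorem exists_wlim {C : Set X} (hC : FipOn C) (hcl : IsClosed C) (hcv : Convex ℝ C)
    {ι : Type*} (U : Ultrafilter ι) {f : ι → X} (hf : ∀ i, f i ∈ C) :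
    ∃ w ∈ C, IsWLim U f w := by
  set F := {Z : Set X | IsClosed Z ∧ Convex ℝ Z ∧ Z ⊆ C ∧
    ∀ᶠ i in (U : Filter ι), f i ∈ Z} with hF
  have hne : F.Nonempty := ⟨C, hcl, hcv, subset_rfl, Eventually.of_forall hf⟩
  have hdir : DirectedOn (fun A B => B ⊆ A) F := by
    rintro A ⟨a1, a2, a3, a4⟩ B ⟨b1, b2, b3, b4⟩
    exact ⟨A ∩ B, ⟨a1.inter b1, a2.inter b2, inter_subset_left.trans a3, a4.and b4⟩,
      inter_subset_left, inter_subset_right⟩
  have hS : ∀ A ∈ F, A.Nonempty ∧ IsClosed A ∧ Convex ℝ A ∧ A ⊆ C := by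
    rintro A ⟨a1, a2, a3, a4⟩
    obtain ⟨i, hi⟩ := a4.exists
    exact ⟨⟨_, hi⟩, a1, a2, a3⟩
  obtain ⟨w, hw⟩ := hC F hne hdir hS
  exact ⟨w, hw C ⟨hcl, hcv, subset_rfl, Eventually.of_forall hf⟩, fun Z h1 h2 h3 =>
    (hw (Z ∩ C) ⟨h1.inter hcl, h2.inter hcv, inter_subset_right,
      h3.mono fun i hi => ⟨hi, hf i⟩⟩).1⟩

theorem IsWLim.tendsto_apply {ι : Type*} {U : Ultrafilter ι} {f : ι → X} {w : X}
    (h : IsWLim U f w) (ψ : StrongDual ℝ X) : Tendsto (fun i => ψ (f i)) U (𝓝 (ψ w)) := by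
  refine Metric.tendsto_nhds.2 fun ε hε => ?_
  by_contra hne
  rw [← Ultrafilter.eventually_not] at hne
  have hor : ∀ᶠ i in (U : Filter ι), ψ w + ε ≤ ψ (f i) ∨ ψ (f i) ≤ ψ w - ε := by
    filter_upwards [hne] with i hi
    rw [Real.dist_eq, abs_lt] at hi
    by_contra hc
    push Not at hc
    exact hi ⟨by linarith, by linarith⟩
  rcases Ultrafilter.eventually_or.1 hor with h1 | h1
  · have := h {x | ψ w + ε ≤ ψ x} (isClosed_le continuous_const ψ.continuous)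
      (convex_halfSpace_ge ψ.toLinearMap.isLinear _) h1
    simp only [mem_ofPred_eq] at this; linarith
  · have := h {x | ψ x ≤ ψ w - ε} (isClosed_le ψ.continuous continuous_const)
      (convex_halfSpace_le ψ.toLinearMap.isLinear _) h1
    simp only [mem_ofPred_eq] at this; linarith

theorem norm_wlim_sub_le {ι : Type*} {U : Ultrafilter ι} {f g : ι → X} {v w : X}
    (hf : IsWLim U f v) (hg : IsWLim U g w) {r : ℝ}
    (h : ∀ᶠ i in (U : Filter ι), ‖f i - g i‖ ≤ r) : ‖v - w‖ ≤ r := by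
  obtain ⟨ψ, hψ, hψv⟩ := exists_dual_vector'' ℝ (v - w)
  have ht := (hf.tendsto_apply ψ).sub (hg.tendsto_apply ψ)
  have hv : ψ v - ψ w = ‖v - w‖ := by simpa [map_sub] using hψv
  rw [hv] at ht
  refine le_of_tendsto ht (h.mono fun i hi => ?_)
  rw [← map_sub]
  exact ((le_abs_self _).trans (ψ.le_opNorm _)).trans
    ((mul_le_of_le_one_left (norm_nonneg _) hψ).trans hi)

end Vale.Agent.P079
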