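import Vale.Agent.P079.Fip

/-!
P079: minimal invariant sets, approximate fixed points, the Goebel-Karlovitz lemma.
-/

open Set Filter Topology Metric

namespace Vale.Agent.P079

universe u

variable {X : Type u} [NormedAddCommGroup X] [NormedSpace ℝ X]

/-- A nonempty closed bounded convex set mapped into itself. -/
structure Good (T : X → X) (K : Set X) : Prop where
  nonempty : K.Nonempty
  closed : IsClosed K
  bdd : Bornology.IsBounded K
  convex : Convex ℝ K
  maps : MapsTo T K K

omit [NormedSpace ℝ X] in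
lemma norm_sub_le_diam {K : Set X} (hb : Bornology.IsBounded K) {x y : X} (hx : x ∈ K)
    (hy : y ∈ K) : ‖x - y‖ ≤ diam K := by
  rw [← dist_eq_norm]; exact dist_le_diam_of_mem hb hx hy

theorem exists_minimal {T : X → X} {C : Set X} (hX : FipOn C) (hC : Good T C) :
    ∃ K ⊆ C, Good T K ∧ ∀ S ⊆ K, Good T S → S = K := by
  have hch : ∀ c ⊆ {S | S ⊆ C ∧ Good T S}, IsChain (· ⊆ ·) c → c.Nonempty →
      ∃ lb ∈ {S | S ⊆ C ∧ Good T S}, ∀ s ∈ c, lb ⊆ s := by
    intro c hc hchain hne
    have hdir : DirectedOn (fun A B => B ⊆ A) c := by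
      intro A hA B hB
      rcases hchain.total hA hB with h | h
      · exact ⟨A, hA, subset_rfl, h⟩
      · exact ⟨B, hB, h, subset_rfl⟩
    obtain ⟨S, hS⟩ := hne
    refine ⟨⋂₀ c, ⟨(sInter_subset_of_mem hS).trans (hc hS).1, ?_⟩, fun s hs => sInter_subset_of_mem hs⟩
    exact
      { nonempty := hX c ⟨S, hS⟩ hdir fun A hA =>
          ⟨(hc hA).2.nonempty, (hc hA).2.closed, (hc hA).2.convex, (hc hA).1⟩
        closed := isClosed_sInter fun A hA => (hc hA).2.closed
        bdd := (hc hS).2.bdd.subset (sInter_subset_of_mem hS)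
        convex := convex_sInter fun A hA => (hc hA).2.convex
        maps := fun x hx A hA => (hc hA).2.maps (hx A hA) }
  obtain ⟨K, hKC, hK⟩ := zorn_superset_nonempty _ hch C ⟨subset_rfl, hC⟩
  exact ⟨K, hKC, hK.1.2, fun S hS hgood => hS.antisymm (hK.2 ⟨hS.trans hKC, hgood⟩ hS)⟩

variable {T : X → X} {K : Set X}

theorem diametral (hK : Good T K) (hmin : ∀ S ⊆ K, Good T S → S = K)
    (hT : ∀ x ∈ K, ∀ y ∈ K, ‖T x - T y‖ ≤ ‖x - y‖) {x : X} (hx : x ∈ K) {r : ℝ}
    (h : ∀ y ∈ K, ‖x - y‖ ≤ r) : diam K ≤ r := by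
  have hsub : closure (convexHull ℝ (T '' K)) ⊆ K :=
    closure_minimal (convexHull_min hK.maps.image_subset hK.convex) hK.closed
  have hK' : closure (convexHull ℝ (T '' K)) = K := hmin _ hsub
    { nonempty := ((hK.nonempty.image T).mono (subset_convexHull ℝ _)).closure
      closed := isClosed_closure
      bdd := hK.bdd.subset hsub
      convex := (convex_convexHull ℝ _).closure
      maps := fun z hz => subset_closure (subset_convexHull ℝ _ ⟨z, hsub hz, rfl⟩) }
  set A := K ∩ ⋂ y ∈ K, closedBall y r with hA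
  have hmem : ∀ {z}, z ∈ A → ∀ y ∈ K, ‖z - y‖ ≤ r := fun {z} hz y hy => by
    simpa [dist_eq_norm] using mem_iInter₂.1 hz.2 y hy
  have hAK : A = K := hmin A inter_subset_left
    { nonempty := ⟨x, hx, mem_iInter₂.2 fun y hy => by simpa [dist_eq_norm] using h y hy⟩
      closed := hK.closed.inter (isClosed_biInter fun y _ => isClosed_closedBall)
      bdd := hK.bdd.subset inter_subset_left
      convex := hK.convex.inter (convex_iInter₂ fun y _ => convex_closedBall y r)
      maps := fun z hz => ⟨hK.maps hz.1, mem_iInter₂.2 fun y hy => by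
        have h1 : closure (convexHull ℝ (T '' K)) ⊆ closedBall (T z) r := by
          refine closure_minimal (convexHull_min ?_ (convex_closedBall _ _)) isClosed_closedBall
          rintro _ ⟨w, hw, rfl⟩
          rw [mem_closedBall, dist_eq_norm, norm_sub_rev]
          exact (hT z hz.1 w hw).trans (hmem hz w hw)
        rw [mem_closedBall, dist_comm]
        exact h1 (hK'.symm ▸ hy)⟩ }
  have hr : 0 ≤ r := (norm_nonneg _).trans (h x hx)
  exact diam_le_of_forall_dist_le hr fun a ha b hb => by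
    rw [dist_eq_norm]; exact hmem (hAK.symm ▸ ha) b hb

theorem goebel_karlovitz (hX : FipOn K) (hK : Good T K) (hmin : ∀ S ⊆ K, Good T S → S = K)
    (hT : ∀ x ∈ K, ∀ y ∈ K, ‖T x - T y‖ ≤ ‖x - y‖) {x : X} (hx : x ∈ K) {ε : ℝ} (hε : 0 < ε) :
    ∃ η > 0, ∀ z ∈ K, ‖T z - z‖ < η → diam K - ε ≤ ‖z - x‖ := by
  by_contra hcon
  push Not at hcon
  choose z hz hdef hlt using fun n : ℕ => hcon (1 / ((n : ℝ) + 1)) (by positivity)
  set U := hyperfilter ℕ
  obtain ⟨w, hwK, hw⟩ := exists_wlim hX hK.closed hK.convex U (f := z) hz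
  set A := {y | y ∈ K ∧ ∀ δ > 0, ∀ᶠ n in (U : Filter ℕ), ‖z n - y‖ ≤ diam K - ε + δ} with hA
  have hdef0 : ∀ δ > 0, ∀ᶠ n in (U : Filter ℕ), ‖T (z n) - z n‖ ≤ δ := by
    intro δ hδ
    obtain ⟨N, hN⟩ := exists_nat_one_div_lt hδ
    have : ∀ᶠ n in atTop, ‖T (z n) - z n‖ ≤ δ := eventually_atTop.2 ⟨N, fun n hn =>
      (hdef n).le.trans ((Nat.one_div_le_one_div hn).trans hN.le)⟩
    exact Nat.hyperfilter_le_atTop this
  have hAK : A = K := hmin A (fun y hy => hy.1)
    { nonempty := ⟨x, hx, fun δ hδ => Eventually.of_forall fun n => by linarith [hlt n]⟩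
      bdd := hK.bdd.subset fun y hy => hy.1
      closed := by
        refine isClosed_of_closure_subset fun y hy => ?_
        refine ⟨closure_minimal (fun a ha => ha.1) hK.closed hy, fun δ hδ => ?_⟩
        obtain ⟨a, ha, hay⟩ := Metric.mem_closure_iff.1 hy (δ / 2) (by linarith)
        rw [dist_eq_norm] at hay
        filter_upwards [ha.2 (δ / 2) (by linarith)] with n hn
        have := norm_sub_le_norm_sub_add_norm_sub (z n) a y
        rw [norm_sub_rev a y] at this
        linarith
      convex := by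
        intro a ha b hb s t hs ht hst
        refine ⟨hK.convex ha.1 hb.1 hs ht hst, fun δ hδ => ?_⟩
        filter_upwards [ha.2 δ hδ, hb.2 δ hδ] with n h1 h2
        have := (convex_closedBall (z n) (diam K - ε + δ))
          (show a ∈ _ by rwa [mem_closedBall, dist_comm, dist_eq_norm])
          (show b ∈ _ by rwa [mem_closedBall, dist_comm, dist_eq_norm]) hs ht hst
        rwa [mem_closedBall, dist_comm, dist_eq_norm] at this
      maps := fun y hy => ⟨hK.maps hy.1, fun δ hδ => by
        filter_upwards [hy.2 (δ / 2) (by linarith), hdef0 (δ / 2) (by linarith)] with n h1 h2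
        have h3 := norm_sub_le_norm_sub_add_norm_sub (z n) (T (z n)) (T y)
        rw [norm_sub_rev (z n) (T (z n))] at h3
        linarith [hT _ (hz n) y hy.1]⟩ }
  have hb : ∀ y ∈ K, ‖w - y‖ ≤ diam K - ε / 2 := by
    intro y hy
    have := hw (closedBall y (diam K - ε / 2)) isClosed_closedBall (convex_closedBall _ _) (by
      filter_upwards [(hAK.symm ▸ hy : y ∈ A).2 (ε / 2) (by linarith)] with n hn
      rw [mem_closedBall, dist_eq_norm]; linarith)
    rwa [mem_closedBall, dist_eq_norm] at this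
  linarith [diametral hK hmin hT hwK hb]

theorem exists_resolvent [CompleteSpace X] (hK : Good T K)
    (hT : ∀ x ∈ K, ∀ y ∈ K, ‖T x - T y‖ ≤ ‖x - y‖) {s : ℝ} (h0 : 0 < s) (h1 : s ≤ 1) {u : X}
    (hu : u ∈ K) :
    ∃ z ∈ K, ‖T z - z‖ ≤ s * diam K ∧
      ∀ q ∈ K, ‖z - q‖ ≤ ‖u - q‖ + ‖T q - q‖ / s := by
  set f : X → X := fun z => (1 - s) • T z + s • u with hf
  have hmaps : MapsTo f K K := fun z hz =>
    hK.convex (hK.maps hz) hu (by linarith) h0.le (by ring)
  have hcon : ContractingWith (1 - s).toNNReal (hmaps.restrict f K K) := by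
    refine ⟨Real.toNNReal_lt_one.2 (by linarith), LipschitzWith.of_dist_le_mul fun a b => ?_⟩
    rw [Subtype.dist_eq, Subtype.dist_eq, dist_eq_norm, dist_eq_norm, MapsTo.val_restrict_apply,
      MapsTo.val_restrict_apply, Real.coe_toNNReal _ (by linarith),
      show f a - f b = (1 - s) • (T a - T b) by simp only [hf]; module,
      norm_smul_of_nonneg (by linarith)]
    exact mul_le_mul_of_nonneg_left (hT _ a.2 _ b.2) (by linarith)
  obtain ⟨z, hz, hfix, -⟩ :=
    hcon.exists_fixedPoint' hK.closed.isComplete hmaps hu (edist_ne_top _ _)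
  have hzf : (1 - s) • T z + s • u = z := hfix
  refine ⟨z, hz, ?_, fun q hq => ?_⟩
  · calc ‖T z - z‖ = ‖s • (T z - u)‖ := by
          congr 1; nth_rw 2 [← hzf]; module
      _ ≤ s * diam K := by
          rw [norm_smul_of_nonneg h0.le]
          exact mul_le_mul_of_nonneg_left (norm_sub_le_diam hK.bdd (hK.maps hz) hu) h0.le
  · have e : z - q = (1 - s) • (T z - T q) + (1 - s) • (T q - q) + s • (u - q) := by
      nth_rw 1 [← hzf]; module
    have h2 := (norm_add₃_le (a := (1 - s) • (T z - T q)) (b := (1 - s) • (T q - q))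
      (c := s • (u - q)))
    rw [← e, norm_smul_of_nonneg (by linarith), norm_smul_of_nonneg (by linarith),
      norm_smul_of_nonneg h0.le] at h2
    have h3 := mul_le_mul_of_nonneg_left (hT z hz q hq) (by linarith : (0 : ℝ) ≤ 1 - s)
    have h4 : (1 - s) * ‖T q - q‖ ≤ ‖T q - q‖ :=
      mul_le_of_le_one_left (norm_nonneg _) (by linarith)
    have h5 : s * ‖z - q‖ ≤ ‖T q - q‖ + s * ‖u - q‖ := by linarith
    rw [← sub_le_iff_le_add', le_div_iff₀ h0]
    linarith

theorem exists_afp [CompleteSpace X] (hK : Good T K)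
    (hT : ∀ x ∈ K, ∀ y ∈ K, ‖T x - T y‖ ≤ ‖x - y‖) {η : ℝ} (hη : 0 < η) :
    ∃ z ∈ K, ‖T z - z‖ < η := by
  obtain ⟨u, hu⟩ := hK.nonempty
  have hd : 0 < diam K + 1 := by linarith [diam_nonneg (s := K)]
  obtain ⟨z, hz, h, -⟩ := exists_resolvent hK hT (lt_min one_pos (div_pos hη hd))
    (min_le_left _ _) hu
  refine ⟨z, hz, h.trans_lt ?_⟩
  calc min 1 (η / (diam K + 1)) * diam K ≤ η / (diam K + 1) * diam K :=
        mul_le_mul_of_nonneg_right (min_le_right _ _) diam_nonneg
    _ < η := by rw [div_mul_eq_mul_div, div_lt_iff₀ hd]; nlinarith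

end Vale.Agent.P079
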