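import Vale.Agent.P079.Minimal

/-!
P079: in a minimal invariant set every point can be moved as near as wished to every other one by
a nonexpansive selfmap that almost fixes all approximate fixed points.
-/

open Set Filter Topology Metric

namespace Vale.Agent.P079

universe u

variable {X : Type u} [NormedAddCommGroup X] [NormedSpace ℝ X] {T : X → X} {K : Set X}

/-- A selfmap of `K` that is nonexpansive and moves a point `q` by at most `c` times its defect. -/
structure Fine (T : X → X) (K : Set X) (f : X → X) (c : ℝ) : Prop where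
  maps : MapsTo f K K
  lip : ∀ a ∈ K, ∀ b ∈ K, ‖f a - f b‖ ≤ ‖a - b‖
  fix : ∀ q ∈ K, ‖f q - q‖ ≤ c * ‖T q - q‖
  nonneg : 0 ≤ c

omit [NormedSpace ℝ X] in
theorem Fine.id : Fine T K (fun z => z) 0 :=
  ⟨fun _ h => h, fun _ _ _ _ => le_rfl, fun q _ => by simp, le_rfl⟩

theorem Fine.comp_map (hK : Good T K) (hT : ∀ x ∈ K, ∀ y ∈ K, ‖T x - T y‖ ≤ ‖x - y‖)
    {f : X → X} {c : ℝ} (hf : Fine T K f c) : Fine T K (fun z => T (f z)) (c + 1) := by
  refine ⟨fun z hz => hK.maps (hf.maps hz),
    fun a ha b hb => (hT _ (hf.maps ha) _ (hf.maps hb)).trans (hf.lip a ha b hb),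
    fun q hq => ?_, by linarith [hf.nonneg]⟩
  calc ‖T (f q) - q‖ ≤ ‖T (f q) - T q‖ + ‖T q - q‖ := norm_sub_le_norm_sub_add_norm_sub _ _ _
    _ ≤ c * ‖T q - q‖ + ‖T q - q‖ :=
      add_le_add ((hT _ (hf.maps hq) _ hq).trans (hf.fix q hq)) le_rfl
    _ = (c + 1) * ‖T q - q‖ := by ring

theorem Fine.combo (hK : Good T K) {f g : X → X} {c d s t : ℝ} (hf : Fine T K f c)
    (hg : Fine T K g d) (hs : 0 ≤ s) (ht : 0 ≤ t) (hst : s + t = 1) :
    Fine T K (fun z => s • f z + t • g z) (max c d) := by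
  have key : ∀ (p q : X) (m : ℝ), ‖p‖ ≤ m → ‖q‖ ≤ m → ‖s • p + t • q‖ ≤ m := fun p q m hp hq => by
    refine (norm_add_le _ _).trans ?_
    rw [norm_smul_of_nonneg hs, norm_smul_of_nonneg ht]
    calc s * ‖p‖ + t * ‖q‖ ≤ s * m + t * m :=
          add_le_add (mul_le_mul_of_nonneg_left hp hs) (mul_le_mul_of_nonneg_left hq ht)
      _ = m := by rw [← add_mul, hst, one_mul]
  refine ⟨fun z hz => hK.convex (hf.maps hz) (hg.maps hz) hs ht hst, fun a ha b hb => ?_,
    fun q hq => ?_, hf.nonneg.trans (le_max_left _ _)⟩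
  · rw [show (s • f a + t • g a) - (s • f b + t • g b) = s • (f a - f b) + t • (g a - g b) by
      module]
    exact key _ _ _ (hf.lip a ha b hb) (hg.lip a ha b hb)
  · have e : (s • f q + t • g q) - q = s • (f q - q) + t • (g q - q) := by
      calc (s • f q + t • g q) - q = (s • f q + t • g q) - (s + t) • q := by rw [hst, one_smul]
        _ = _ := by module
    rw [e]
    exact key _ _ _
      ((hf.fix q hq).trans (mul_le_mul_of_nonneg_right (le_max_left _ _) (norm_nonneg _)))
      ((hg.fix q hq).trans (mul_le_mul_of_nonneg_right (le_max_right _ _) (norm_nonneg _)))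

/-- The orbit lemma: fine maps send any point of a minimal set densely into it. -/
theorem exists_fine (hK : Good T K) (hmin : ∀ S ⊆ K, Good T S → S = K)
    (hT : ∀ x ∈ K, ∀ y ∈ K, ‖T x - T y‖ ≤ ‖x - y‖) {y p : X} (hy : y ∈ K) (hp : p ∈ K)
    {ε : ℝ} (hε : 0 < ε) : ∃ f c, Fine T K f c ∧ ‖f y - p‖ < ε := by
  set O := {z | ∃ f c, Fine T K f c ∧ f y = z} with hO
  have hOK : O ⊆ K := by rintro _ ⟨f, c, hf, rfl⟩; exact hf.maps hy
  have hcl : closure O ⊆ K := closure_minimal hOK hK.closed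
  have hS : closure O = K := hmin _ hcl
    { nonempty := ⟨y, subset_closure ⟨_, _, Fine.id, rfl⟩⟩
      closed := isClosed_closure
      bdd := hK.bdd.subset hcl
      convex := by
        refine Convex.closure ?_
        rintro _ ⟨f, c, hf, rfl⟩ _ ⟨g, d, hg, rfl⟩ s t hs ht hst
        exact ⟨_, _, hf.combo hK hg hs ht hst, rfl⟩
      maps := fun z hz => by
        refine Metric.mem_closure_iff.2 fun δ hδ => ?_
        obtain ⟨b, hb, hzb⟩ := Metric.mem_closure_iff.1 hz δ hδ
        obtain ⟨f, c, hf, rfl⟩ := hb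
        refine ⟨T (f y), ⟨_, _, hf.comp_map hK hT, rfl⟩, ?_⟩
        rw [dist_eq_norm] at hzb ⊢
        exact (hT z (hcl hz) _ (hf.maps hy)).trans_lt hzb }
  obtain ⟨b, hb, hpb⟩ := Metric.mem_closure_iff.1 (hS.symm ▸ hp : p ∈ closure O) ε hε
  obtain ⟨f, c, hf, rfl⟩ := hb
  exact ⟨f, c, hf, by rwa [dist_comm, dist_eq_norm] at hpb⟩

/-- A minimal set is separable: it is the closure of a countable set. -/
theorem exists_dense_seq (hK : Good T K) (hmin : ∀ S ⊆ K, Good T S → S = K)
    (hT : ∀ x ∈ K, ∀ y ∈ K, ‖T x - T y‖ ≤ ‖x - y‖) :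
    ∃ d : ℕ → X, (∀ n, d n ∈ K) ∧ K ⊆ closure (range d) := by
  obtain ⟨y, hy⟩ := hK.nonempty
  let P : ℕ → Set X := fun n => Nat.rec {y}
    (fun _ S => S ∪ T '' S ∪ Set.image2 (fun a b => (1 / 2 : ℝ) • a + (1 / 2 : ℝ) • b) S S) n
  have hPsucc : ∀ n, P (n + 1) =
      P n ∪ T '' P n ∪ Set.image2 (fun a b => (1 / 2 : ℝ) • a + (1 / 2 : ℝ) • b) (P n) (P n) :=
    fun n => rfl
  have hP : ∀ n, P n ⊆ K ∧ (P n).Countable := by
    intro n
    induction n with
    | zero => exact ⟨singleton_subset_iff.2 hy, countable_singleton y⟩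
    | succ n ih =>
      rw [hPsucc]
      refine ⟨union_subset (union_subset ih.1 ?_) ?_,
        (ih.2.union (ih.2.image T)).union (ih.2.image2 ih.2 _)⟩
      · rintro _ ⟨a, ha, rfl⟩; exact hK.maps (ih.1 ha)
      · rintro _ ⟨a, ha, b, hb, rfl⟩
        exact hK.convex (ih.1 ha) (ih.1 hb) (by norm_num) (by norm_num) (by norm_num)
  have hmono : Monotone P := monotone_nat_of_le_succ fun n => by
    rw [hPsucc]; exact subset_union_of_subset_left subset_union_left _
  set D := ⋃ n, P n with hD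
  have hne : D.Nonempty := ⟨y, mem_iUnion.2 ⟨0, rfl⟩⟩
  have hDK : D ⊆ K := iUnion_subset fun n => (hP n).1
  obtain ⟨d, hd⟩ := (countable_iUnion fun n => (hP n).2).exists_eq_range hne
  have hd' : range d = D := hd.symm
  have hcl : closure D ⊆ K := closure_minimal hDK hK.closed
  have hmid : ∀ a ∈ closure D, ∀ b ∈ closure D,
      (1 / 2 : ℝ) • a + (1 / 2 : ℝ) • b ∈ closure D := fun a ha b hb => by
    refine map_mem_closure₂ (f := fun a b => (1 / 2 : ℝ) • a + (1 / 2 : ℝ) • b) ?_ ha hb ?_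
    · exact (continuous_const.smul continuous_fst).add (continuous_const.smul continuous_snd)
    · intro a ha b hb
      obtain ⟨n, hn⟩ := mem_iUnion.1 ha
      obtain ⟨m, hm⟩ := mem_iUnion.1 hb
      refine mem_iUnion.2 ⟨max n m + 1, ?_⟩
      rw [hPsucc]
      exact Or.inr ⟨a, hmono (le_max_left n m) hn, b, hmono (le_max_right n m) hm, rfl⟩
  have hS : closure D = K := hmin _ hcl
    { nonempty := hne.closure
      closed := isClosed_closure
      bdd := hK.bdd.subset hcl
      convex := by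
        intro a ha b hb s t hs ht hst
        set A := {r : ℝ | r ∈ Icc (0 : ℝ) 1 ∧ r • a + (1 - r) • b ∈ closure D} with hA
        have hAcl : IsClosed A := isClosed_Icc.inter (isClosed_closure.preimage (by fun_prop))
        have hsI : s ∈ Icc (0 : ℝ) 1 := ⟨hs, by linarith⟩
        suffices h : s ∈ A by rw [show t = 1 - s by linarith]; exact h.2
        have hdy : ∀ n : ℕ, ∀ j : ℕ, j ≤ 2 ^ n → ((j : ℝ) / 2 ^ n) ∈ A := by
          intro n
          induction n with
          | zero =>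
            intro j hj
            interval_cases j
            · exact ⟨by norm_num, by simpa using hb⟩
            · exact ⟨by norm_num, by simpa using ha⟩
          | succ n ih =>
            intro j hj
            rw [pow_succ] at hj
            obtain ⟨⟨h1, h1'⟩, h2⟩ := ih (j / 2) (by omega)
            obtain ⟨⟨h3, h3'⟩, h4⟩ := ih (j - j / 2) (by omega)
            have e : (j : ℝ) / 2 ^ (n + 1) =
                (1 / 2) * (((j / 2 : ℕ) : ℝ) / 2 ^ n) +
                  (1 / 2) * (((j - j / 2 : ℕ) : ℝ) / 2 ^ n) := by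
              rw [Nat.cast_sub (Nat.div_le_self _ _), pow_succ]
              field_simp
              ring
            rw [e]
            refine ⟨⟨by linarith, by linarith⟩, ?_⟩
            refine Eq.subst (motive := fun z => z ∈ closure D) ?_ (hmid _ h2 _ h4)
            module
        have ht' : Tendsto (fun n : ℕ => ((⌊s * 2 ^ n⌋₊ : ℕ) : ℝ) / 2 ^ n) atTop (𝓝 s) :=
          (tendsto_nat_floor_mul_div_atTop hs).comp (tendsto_pow_atTop_atTop_of_one_lt one_lt_two)
        refine hAcl.mem_of_tendsto ht' (Eventually.of_forall fun n => hdy n _ ?_)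
        refine Nat.floor_le_of_le ?_
        push_cast
        exact mul_le_of_le_one_left (by positivity) hsI.2
      maps := fun z hz => by
        refine Metric.mem_closure_iff.2 fun δ hδ => ?_
        obtain ⟨b, hb, hzb⟩ := Metric.mem_closure_iff.1 hz δ hδ
        obtain ⟨n, hn⟩ := mem_iUnion.1 hb
        refine ⟨T b, mem_iUnion.2 ⟨n + 1, by rw [hPsucc]; exact Or.inl (Or.inr ⟨b, hn, rfl⟩)⟩, ?_⟩
        rw [dist_eq_norm] at hzb ⊢
        exact (hT z (hcl hz) b (hDK hb)).trans_lt hzb }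
  exact ⟨d, fun n => hDK (hd' ▸ ⟨n, rfl⟩), by rw [hd', hS]⟩

end Vale.Agent.P079
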