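import Vale.Agent.P079.Defs
import Vale.Agent.P079.Chain

/-!
P079: uniform convexity kills the chain, so the fixed point property holds.
-/

open Set Filter Topology Metric

namespace Vale.Agent.P079

universe u v

variable {X : Type u} [NormedAddCommGroup X] [NormedSpace ℝ X]

/-- Averages over dyadic blocks. -/
noncomputable def avgB (g : ℕ → X) : ℕ → ℕ → X
  | 0, j => g j
  | m + 1, j => (1 / 2 : ℝ) • (avgB g m (2 * j) + avgB g m (2 * j + 1))

lemma avgB_congr (g g' : ℕ → X) : ∀ m j, (∀ i < (j + 1) * 2 ^ m, g i = g' i) →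
    avgB g m j = avgB g' m j
  | 0, j, h => h j (by simp)
  | m + 1, j, h => by
    simp only [avgB]
    rw [avgB_congr g g' m (2 * j) fun i hi => h i (hi.trans_le (by rw [pow_succ]; nlinarith [Nat.two_pow_pos m])),
      avgB_congr g g' m (2 * j + 1) fun i hi => h i (hi.trans_le (by rw [pow_succ]; nlinarith [Nat.two_pow_pos m]))]

lemma apply_avgB_le (g : ℕ → X) (ψ : StrongDual ℝ X) {δ : ℝ} : ∀ m j,
    (∀ i, j * 2 ^ m ≤ i → i < (j + 1) * 2 ^ m → ψ (g i) ≤ δ) → ψ (avgB g m j) ≤ δ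
  | 0, j, h => h j (by simp) (by simp)
  | m + 1, j, h => by
    have h1 := apply_avgB_le g ψ m (2 * j) fun i hi hi' => h i
      (le_trans (by rw [pow_succ]; nlinarith [Nat.two_pow_pos m]) hi) (hi'.trans_le (by rw [pow_succ]; nlinarith [Nat.two_pow_pos m]))
    have h2 := apply_avgB_le g ψ m (2 * j + 1) fun i hi hi' => h i
      (le_trans (by rw [pow_succ]; nlinarith [Nat.two_pow_pos m]) hi) (hi'.trans_le (by rw [pow_succ]; nlinarith [Nat.two_pow_pos m]))
    simp only [avgB, map_smul, map_add, smul_eq_mul]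
    linarith

lemma uc_contract {Y : Type v} [NormedAddCommGroup Y] [NormedSpace ℝ Y] [UniformConvexSpace Y]
    {R c : ℝ} (hR : 0 < R) (hc : 0 < c) :
    ∃ η, 0 < η ∧ η ≤ 1 / 2 ∧ ∀ r ≤ R, ∀ x y : Y, ‖x‖ ≤ r → ‖y‖ ≤ r → c ≤ ‖x - y‖ →
      ‖(1 / 2 : ℝ) • (x + y)‖ ≤ r * (1 - η) := by
  obtain ⟨δ, hδ, h⟩ := exists_forall_closed_ball_dist_add_le_two_sub Y (div_pos hc hR)
  refine ⟨min (δ / 2) (1 / 2), lt_min (by linarith) (by norm_num), min_le_right _ _, ?_⟩
  intro r hrR x y hx hy hxy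
  have hr : 0 < r := by linarith [norm_sub_le x y]
  have hsc : ∀ z : Y, ‖r⁻¹ • z‖ = r⁻¹ * ‖z‖ := fun z =>
    norm_smul_of_nonneg (inv_nonneg.2 hr.le) z
  have h1 : ‖r⁻¹ • x + r⁻¹ • y‖ ≤ 2 - δ := by
    refine h ?_ ?_ ?_
    · rw [hsc, inv_mul_le_iff₀ hr, mul_one]; exact hx
    · rw [hsc, inv_mul_le_iff₀ hr, mul_one]; exact hy
    · rw [← smul_sub, hsc, ← div_eq_inv_mul]
      exact div_le_div₀ (norm_nonneg _) hxy hr hrR
  rw [← smul_add, hsc, inv_mul_le_iff₀ hr] at h1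
  rw [norm_smul_of_nonneg (by norm_num)]
  nlinarith [min_le_left (δ / 2) (1 / 2)]

theorem hasFPP_of_equiv [CompleteSpace X] {Y : Type v} [NormedAddCommGroup Y] [NormedSpace ℝ Y]
    [UniformConvexSpace Y] (e : X ≃L[ℝ] Y) : HasFPP X := by
  intro C hne hcl hbd hcv T hmaps hlip
  have : CompleteSpace Y := (completeSpace_congr (e := e.toEquiv) e.isUniformEmbedding).1 inferInstance
  have hX : Fip X := Fip.of_equiv e (fip_of_uniformConvexSpace Y)
  have hCfip : FipOn C := hX.fipOn hbd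
  obtain ⟨K, hKC, hK, hmin⟩ := exists_minimal hCfip (T := T) ⟨hne, hcl, hbd, hcv, hmaps⟩
  have hT : ∀ x ∈ K, ∀ y ∈ K, ‖T x - T y‖ ≤ ‖x - y‖ := fun x hx y hy => by
    simpa [dist_eq_norm] using hlip.dist_le_mul x (hKC hx) y (hKC hy)
  by_contra hcon
  obtain ⟨x0, hx0⟩ := hK.nonempty
  have hD : 0 < diam K := by
    refine lt_of_lt_of_le (norm_pos_iff.2 (sub_ne_zero.2 fun h => hcon ⟨x0, hKC hx0, h⟩)) ?_
    exact norm_sub_le_diam hK.bdd (hK.maps hx0) hx0
  set D := diam K with hDdef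
  set A := ‖(e : X →L[ℝ] Y)‖ + 1 with hA
  set B := ‖(e.symm : Y →L[ℝ] X)‖ + 1 with hB
  have hA0 : 0 < A := by positivity
  have hB0 : 0 < B := by positivity
  have hlow : ∀ x : X, ‖x‖ / B ≤ ‖e x‖ := fun x => by
    rw [div_le_iff₀ hB0, mul_comm]
    calc ‖x‖ = ‖(e.symm : Y →L[ℝ] X) (e x)‖ := by simp
      _ ≤ ‖(e.symm : Y →L[ℝ] X)‖ * ‖e x‖ := ContinuousLinearMap.le_opNorm _ _
      _ ≤ B * ‖e x‖ := mul_le_mul_of_nonneg_right (by linarith) (norm_nonneg _)
  obtain ⟨η, hη0, hη1, huc⟩ :=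
    uc_contract (Y := Y) (R := A * (3 * D)) (c := D / 4 / B) (by positivity) (by positivity)
  obtain ⟨M, hM⟩ := exists_pow_lt_of_lt_one
    (show (0 : ℝ) < D / 2 / B / (A * (3 * D)) by positivity) (show 1 - η < 1 by linarith)
  rw [lt_div_iff₀ (by positivity)] at hM
  choose nf hnf1 hnf2 using fun x : X => exists_dual_vector'' ℝ x
  classical
  let pairs : ℕ → Finset (ℕ × ℕ) := fun n =>
    ((Finset.range (M + 1)) ×ˢ (Finset.range (2 ^ M))).filter fun p => (p.2 + 1) * 2 ^ p.1 ≤ n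
  let sel : ℕ → (ℕ → X) → Finset (StrongDual ℝ X) := fun n g =>
    (pairs n).image fun p => nf (avgB g p.1 p.2)
  have hsel : ∀ n g g', (∀ i < n, g i = g' i) → sel n g = sel n g' := by
    intro n g g' h
    refine Finset.image_congr fun p hp => ?_
    simp only [pairs, Finset.coe_filter, mem_ofPred_eq] at hp
    rw [avgB_congr g g' p.1 p.2 fun i hi => h i (hi.trans_le hp.2)]
  obtain ⟨g, Φ, hΦ, hg⟩ := chain (hCfip.mono hKC) hK hmin hT hD (2 ^ M) sel hsel
    (show (0 : ℝ) < D / 4 by positivity)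
  have key : ∀ m ≤ M, ∀ j, (j + 1) * 2 ^ m ≤ 2 ^ M →
      D / 2 ≤ Φ (avgB g m j) ∧ ‖e (avgB g m j)‖ ≤ A * (3 * D) * (1 - η) ^ m := by
    intro m
    induction m with
    | zero =>
      intro _ j hj
      have hjk : j < 2 ^ M := by simpa using hj
      refine ⟨(hg j hjk).2.1, ?_⟩
      simp only [avgB, pow_zero, mul_one]
      calc ‖e (g j)‖ ≤ ‖(e : X →L[ℝ] Y)‖ * ‖g j‖ := (e : X →L[ℝ] Y).le_opNorm (g j)
        _ ≤ A * (3 * D) := mul_le_mul (by linarith) (hg j hjk).1 (norm_nonneg _) hA0.le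
    | succ m ih =>
      intro hm j hj
      have hb : (2 * j + 1 + 1) * 2 ^ m ≤ 2 ^ M := le_trans (by rw [pow_succ]; ring_nf; rfl) hj
      have ha : (2 * j + 1) * 2 ^ m ≤ 2 ^ M :=
        le_trans (Nat.mul_le_mul_right _ (by omega)) hb
      obtain ⟨a1, a2⟩ := ih (by omega) (2 * j) ha
      obtain ⟨b1, b2⟩ := ih (by omega) (2 * j + 1) hb
      refine ⟨by simp only [avgB, map_smul, map_add, smul_eq_mul]; linarith, ?_⟩
      set ψ := nf (avgB g m (2 * j))
      have hψA : D / 2 ≤ ψ (avgB g m (2 * j)) := by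
        rw [show ψ (avgB g m (2 * j)) = ‖avgB g m (2 * j)‖ by simpa using hnf2 _]
        exact a1.trans (((le_abs_self _).trans (Φ.le_opNorm _)).trans
          (mul_le_of_le_one_left (norm_nonneg _) hΦ))
      have hψB : ψ (avgB g m (2 * j + 1)) ≤ D / 4 := by
        refine apply_avgB_le g ψ m (2 * j + 1) fun i hi hi' =>
          (le_abs_self _).trans ((hg i (hi'.trans_le hb)).2.2 ψ ?_).le
        refine Finset.mem_image.2 ⟨(m, 2 * j), ?_, rfl⟩
        simp only [pairs, Finset.mem_filter, Finset.mem_product, Finset.mem_range]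
        refine ⟨⟨by omega, ?_⟩, hi⟩
        have : 2 * j + 1 ≤ (2 * j + 1) * 2 ^ m := Nat.le_mul_of_pos_right _ (by positivity)
        omega
      have hsep : D / 4 / B ≤ ‖e (avgB g m (2 * j)) - e (avgB g m (2 * j + 1))‖ := by
        rw [← map_sub]
        refine le_trans (div_le_div_of_nonneg_right ?_ hB0.le) (hlow _)
        have := ((le_abs_self _).trans (ψ.le_opNorm
          (avgB g m (2 * j) - avgB g m (2 * j + 1)))).trans
          (mul_le_of_le_one_left (norm_nonneg _) (hnf1 _))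
        rw [map_sub] at this
        linarith
      have hpow : A * (3 * D) * (1 - η) ^ m ≤ A * (3 * D) :=
        mul_le_of_le_one_right (by positivity) (pow_le_one₀ (by linarith) (by linarith))
      have := huc _ hpow _ _ a2 b2 hsep
      rw [pow_succ, ← mul_assoc]
      simpa [avgB, map_smul, map_add] using this
  obtain ⟨h1, h2⟩ := key M le_rfl 0 (by simp)
  have h3 : D / 2 ≤ ‖avgB g M 0‖ :=
    h1.trans (((le_abs_self _).trans (Φ.le_opNorm _)).trans
      (mul_le_of_le_one_left (norm_nonneg _) hΦ))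
  have h4 := (div_le_div_of_nonneg_right h3 hB0.le).trans ((hlow _).trans h2)
  nlinarith

end Vale.Agent.P079
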